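import Vale.Agent.P282A71.Sk

/-!
P282, analytic double points: the rows `INV` and `MODEL`.
-/

open Filter Topology IsLocalRing MvPolynomial
open Vale.Agent.P298.H941
open scoped ContDiff

namespace Vale.Agent.P282A71

/-- germs in the square of the maximal ideal have zero derivative -/
theorem deriv_of_sq {N : ℕ} {f : (Fin N → ℂ) → ℂ} (hf : AnalyticAt ℂ f 0)
    (h : mk f hf ∈ maximalIdeal (ON N) ^ 2) : HasFDerivAt f (0 : (Fin N → ℂ) →L[ℂ] ℂ) 0 := by
  have key : ∀ a ∈ maximalIdeal (ON N) * maximalIdeal (ON N), ∃ (g : (Fin N → ℂ) → ℂ)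
      (hg : AnalyticAt ℂ g 0), mk g hg = a ∧ HasFDerivAt g (0 : (Fin N → ℂ) →L[ℂ] ℂ) 0 := by
    intro a ha
    refine Submodule.mul_induction_on ha (fun u hu v hv => ?_) fun u v hu hv => ?_
    · obtain ⟨g, hg, rfl⟩ := exists_rep u
      obtain ⟨k, hk, rfl⟩ := exists_rep v
      rw [Vale.Agent.P298.H941.mem_maximalIdeal, ev0_mk] at hu hv
      refine ⟨_, _, (mk_mul hg hk).symm, ?_⟩
      have := hg.differentiableAt.hasFDerivAt.mul hk.differentiableAt.hasFDerivAt
      rw [hu, hv] at this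
      exact this.congr_fderiv (by ext x; simp)
    · obtain ⟨g, hg, rfl, h1⟩ := hu
      obtain ⟨k, hk, rfl, h2⟩ := hv
      refine ⟨_, _, (mk_add hg hk).symm, ?_⟩
      have := h1.add h2
      rw [add_zero] at this
      exact this
  obtain ⟨g, hg, e, h1⟩ := key _ (by rwa [← sq])
  exact h1.congr_of_eventuallyEq ((mk_eq_iff _ _).1 e.symm)

theorem inv : INV := by
  intro N g hg h0 h a
  have hd : HasFDerivAt g
      ((ContinuousLinearEquiv.refl ℂ (Fin N → ℂ) : (Fin N → ℂ) ≃L[ℂ] Fin N → ℂ) :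
        (Fin N → ℂ) →L[ℂ] Fin N → ℂ) 0 := by
    refine hasFDerivAt_pi'' fun i => ?_
    have h1 := h i
    rw [zc, pull_mk, mk_sub] at h1
    have h2 := (deriv_of_sq _ h1).add
      (ContinuousLinearMap.proj (R := ℂ) (φ := fun _ : Fin N => ℂ) i).hasFDerivAt
    rw [zero_add] at h2
    refine h2.congr_of_eventuallyEq (Eventually.of_forall fun x => ?_)
    simp
  have hc : ContDiffAt ℂ ω g 0 := hg.contDiffAt
  have hk : AnalyticAt ℂ (hc.localInverse hd (by simp)) 0 := by
    have := (hc.to_localInverse hd (by simp)).analyticAt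
    rwa [h0] at this
  have k0 : hc.localInverse hd (by simp) 0 = 0 := by
    have := hc.localInverse_apply_image hd (by simp)
    rwa [h0] at this
  refine ⟨pull _ hk k0 a, ?_⟩
  rw [pull_pull]
  exact (pull_congr (hc.hasStrictFDerivAt' hd (by simp)).eventually_left_inverse a).trans
    (pull_id a)

theorem model14 : MODEL := by
  intro R _ _ _ hR hs
  obtain ⟨σ, hσ⟩ := (Algebra.essFiniteType_iff ℂ R).1 hR
  have hc : ∀ x : R, ∃ c : ℂ, x - algebraMap ℂ R c ∈ maximalIdeal R := fun x => by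
    obtain ⟨c, hc⟩ := hs (residue R x)
    refine ⟨c, (residue_eq_zero_iff _).1 ?_⟩
    rw [map_sub, ← hc]
    exact sub_self _
  choose c hc using hc
  let e := σ.equivFin.symm
  let y : Fin σ.card → R := fun i => (e i).1 - algebraMap ℂ R (c (e i).1)
  have hle : Algebra.adjoin ℂ (σ : Set R) ≤ (aeval y : MvPolynomial _ ℂ →ₐ[ℂ] R).range := by
    refine Algebra.adjoin_le fun x hx => ⟨X (e.symm ⟨x, hx⟩) + C (c x), ?_⟩
    simp [y]
  refine ⟨σ.card, y, fun i => hc _, fun f => ?_⟩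
  obtain ⟨t, ht, hu, hf⟩ := hσ f
  obtain ⟨b, hb⟩ := hle ht
  obtain ⟨a, ha⟩ := hle hf
  change aeval y b = t at hb
  change aeval y a = f * t at ha
  exact ⟨a, b, hb ▸ hu, by rw [hb, ha]⟩

end Vale.Agent.P282A71
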