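import Vale.Agent.P282A71.Sk

/-!
P282, analytic double points: the row `JET`.
-/

open Filter Topology IsLocalRing MvPolynomial Asymptotics
open Vale.Agent.P298.H941 Vale.Agent.P277.H29

namespace Vale.Agent.P282A14

open Vale.Agent.P282A71

theorem zc_mem {N : ℕ} (i : Fin N) : zc i ∈ maximalIdeal (ON N) :=
  (Vale.Agent.P298.H941.mem_maximalIdeal _).2 rfl

theorem max_eq (N : ℕ) : maximalIdeal (ON N) = Ideal.span (Set.range zc) := by
  refine le_antisymm ?_ (Ideal.span_le.2 (by rintro _ ⟨i, rfl⟩; exact zc_mem i))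
  induction N with
  | zero =>
    intro r hr
    obtain ⟨f, hf, rfl⟩ := exists_rep r
    rw [Vale.Agent.P298.H941.mem_maximalIdeal, ev0_mk] at hr
    rw [(mk_eq_zero_iff hf).2 (Eventually.of_forall fun x => by rw [Subsingleton.elim x 0, hr])]
    exact zero_mem _
  | succ k ih =>
    intro r hr
    obtain ⟨s, t, rfl⟩ := exists_decomp k r
    have h0 : co k ∈ Ideal.span (Set.range (zc (N := k + 1))) := Ideal.subset_span ⟨0, rfl⟩
    refine add_mem (Ideal.mul_mem_right _ _ h0) ?_
    have ht : t ∈ maximalIdeal (ON k) := by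
      rw [Vale.Agent.P298.H941.mem_maximalIdeal] at hr ⊢
      have h1 : ev0 _ (co k) = 0 := rfl
      rw [map_add, map_mul, h1, zero_mul, zero_add] at hr
      exact (ev0_pull _ _ _ t).symm.trans hr
    have h2 : Ideal.span (Set.range (zc (N := k))) ≤
        (Ideal.span (Set.range (zc (N := k + 1)))).comap (sec k) :=
      Ideal.span_le.2 (by rintro _ ⟨i, rfl⟩; exact Ideal.subset_span ⟨i.succ, rfl⟩)
    exact h2 (ih ht)

theorem pl_X {N : ℕ} (i : Fin N) : pl N (X i) = zc i := aeval_X _ _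

theorem pl_C {N : ℕ} (c : ℂ) : pl N (C c) = algebraMap ℂ (ON N) c := aeval_C _ _

theorem pl_eq {N : ℕ} (p : MvPolynomial (Fin N) ℂ) :
    ∃ hf, pl N p = mk (fun z => eval z p) hf := by
  induction p using MvPolynomial.induction_on with
  | C c =>
    simp only [eval_C]
    exact ⟨analyticAt_const, pl_C c⟩
  | add p q hp hq =>
    obtain ⟨h1, e1⟩ := hp
    obtain ⟨h2, e2⟩ := hq
    simp only [map_add, e1, e2]
    exact ⟨h1.add h2, mk_add h1 h2⟩
  | mul_X p i hp =>
    obtain ⟨h1, e1⟩ := hp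
    simp only [map_mul, e1, pl_X, eval_X]
    exact ⟨h1.mul (ana_proj i 0), mk_mul h1 (ana_proj i 0)⟩

theorem map_vars (N : ℕ) : (Ideal.span (Set.range X)).map (pl N) = maximalIdeal (ON N) := by
  rw [max_eq, Ideal.map_span, ← Set.range_comp]
  exact congrArg (fun f => Ideal.span (Set.range f)) (funext pl_X)

theorem pl_mem {N k : ℕ} {p : MvPolynomial (Fin N) ℂ} (h : p ∈ Ideal.span (Set.range X) ^ k) :
    pl N p ∈ maximalIdeal (ON N) ^ k := by
  rw [← map_vars, ← Ideal.map_pow]
  exact Ideal.mem_map_of_mem _ h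

theorem dense {N : ℕ} (k : ℕ) (s : ON N) : ∃ x, s - pl N x ∈ maximalIdeal (ON N) ^ k := by
  induction k generalizing s with
  | zero => exact ⟨0, by simp⟩
  | succ k ih =>
    have h : s - algebraMap ℂ (ON N) (ev0 _ s) ∈ Ideal.span (Set.range zc) := by
      rw [← max_eq, Vale.Agent.P298.H941.mem_maximalIdeal, map_sub, AlgHom.commutes]
      exact sub_self _
    obtain ⟨a, ha⟩ := Ideal.mem_span_range_iff_exists_fun.1 h
    choose x hx using fun i => ih (a i)
    refine ⟨C (ev0 _ s) + ∑ i, x i * X i, ?_⟩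
    have : s - pl N (C (ev0 _ s) + ∑ i, x i * X i) = ∑ i, (a i - pl N (x i)) * zc i := by
      simp only [map_add, map_sum, map_mul, pl_X, pl_C, sub_mul, Finset.sum_sub_distrib, ha]
      ring
    rw [this, pow_succ]
    exact sum_mem fun i _ => Ideal.mul_mem_mul (hx i) (zc_mem i)

/-- germs in the `k`-th power of the maximal ideal vanish to order `k` -/
theorem growth {N : ℕ} (k : ℕ) : ∀ a ∈ maximalIdeal (ON N) ^ k, ∃ (f : (Fin N → ℂ) → ℂ)
    (hf : AnalyticAt ℂ f 0), mk f hf = a ∧ f =O[𝓝 0] fun z => ‖z‖ ^ k := by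
  induction k with
  | zero =>
    intro a _
    obtain ⟨f, hf, rfl⟩ := exists_rep a
    exact ⟨f, hf, rfl, by simpa using hf.continuousAt.tendsto.isBigO_one ℝ⟩
  | succ k ih =>
    intro a ha
    rw [pow_succ] at ha
    refine Submodule.mul_induction_on ha (fun u hu v hv => ?_) fun u v hu hv => ?_
    · obtain ⟨g, hg, rfl, h1⟩ := ih u hu
      obtain ⟨f, hf, rfl⟩ := exists_rep v
      rw [Vale.Agent.P298.H941.mem_maximalIdeal, ev0_mk] at hv
      refine ⟨_, _, (mk_mul hg hf).symm, ?_⟩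
      have h2 : f =O[𝓝 0] fun z => ‖z‖ := by
        simpa only [hv, sub_zero] using hf.differentiableAt.isBigO_sub.norm_right
      simpa only [pow_succ] using h1.mul h2
    · obtain ⟨g, hg, rfl, h1⟩ := hu
      obtain ⟨f, hf, rfl, h2⟩ := hv
      exact ⟨_, _, (mk_add hg hf).symm, h1.add h2⟩

theorem eval_smul_hom {N k : ℕ} (p : MvPolynomial (Fin N) ℂ) (t : ℂ) (v : Fin N → ℂ) :
    eval (t • v) (homogeneousComponent k p) = t ^ k * eval v (homogeneousComponent k p) := by
  rw [homogeneousComponent_apply, map_sum, map_sum, Finset.mul_sum]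
  refine Finset.sum_congr rfl fun d hd => ?_
  rw [eval_monomial, eval_monomial, ← (Finset.mem_filter.1 hd).2, Finsupp.degree_apply,
    Finsupp.prod, Finsupp.prod, ← Finset.prod_pow_eq_pow_sum]
  simp only [Pi.smul_apply, smul_eq_mul, mul_pow, Finset.prod_mul_distrib]
  ring

theorem hom_zero {N k : ℕ} {p : MvPolynomial (Fin N) ℂ}
    (h : pl N (homogeneousComponent k p) ∈ maximalIdeal (ON N) ^ (k + 1)) :
    homogeneousComponent k p = 0 := by
  obtain ⟨f, hf, e, hO⟩ := growth _ _ h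
  obtain ⟨hg, e'⟩ := pl_eq (homogeneousComponent k p)
  have h1 := hO.congr' ((mk_eq_iff _ _).1 (e.trans e')) EventuallyEq.rfl
  refine MvPolynomial.funext fun v => ?_
  rw [map_zero]
  set c := eval v (homogeneousComponent k p)
  have ht : Tendsto (fun t : ℂ => t • v) (𝓝[≠] 0) (𝓝 0) := by
    have : Tendsto (fun t : ℂ => t • v) (𝓝 0) (𝓝 ((0 : ℂ) • v)) :=
      (continuous_id.smul continuous_const).tendsto 0
    rw [zero_smul] at this
    exact this.mono_left nhdsWithin_le_nhds
  obtain ⟨K, hK⟩ := (h1.comp_tendsto ht).bound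
  have h2 : ∀ᶠ t : ℂ in 𝓝[≠] 0, ‖c‖ ≤ K * (‖t‖ * ‖v‖ ^ (k + 1)) := by
    filter_upwards [hK, self_mem_nhdsWithin] with t h3 h4
    have h5 : 0 < ‖t‖ ^ k := pow_pos (norm_pos_iff.2 h4) k
    simp only [Function.comp_apply, eval_smul_hom, norm_mul, norm_pow, norm_norm, norm_smul,
      mul_pow] at h3
    refine le_of_mul_le_mul_left (h3.trans_eq ?_) h5
    ring
  have h3 : Tendsto (fun t : ℂ => K * (‖t‖ * ‖v‖ ^ (k + 1))) (𝓝[≠] 0)
      (𝓝 (K * (‖(0 : ℂ)‖ * ‖v‖ ^ (k + 1)))) :=
    ((continuous_const.mul (continuous_norm.mul continuous_const)).tendsto 0).mono_left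
      nhdsWithin_le_nhds
  have h4 := ge_of_tendsto h3 h2
  rw [norm_zero, zero_mul, mul_zero] at h4
  exact norm_le_zero_iff.1 h4

theorem mem_of_pl {N : ℕ} (k : ℕ) (p : MvPolynomial (Fin N) ℂ)
    (h : pl N p ∈ maximalIdeal (ON N) ^ k) : p ∈ Ideal.span (Set.range X) ^ k := by
  induction k with
  | zero => simp
  | succ k ih =>
    have h1 := ih (Ideal.pow_le_pow_right k.le_succ h)
    have h2 : p - homogeneousComponent k p ∈ Ideal.span (Set.range X) ^ (k + 1) := by
      refine (mem_pow_idealOfVars_iff' _ _).2 fun x hx => ?_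
      rw [coeff_sub, coeff_homogeneousComponent]
      split_ifs with e
      · exact sub_self _
      · rw [sub_zero]
        exact (mem_pow_idealOfVars_iff' _ _).1 h1 x (by omega)
    have h3 := sub_mem h (pl_mem h2)
    rw [← map_sub, sub_sub_cancel] at h3
    rwa [hom_zero h3, sub_zero] at h2

theorem jet : JET := fun N => ⟨max_eq N, fun k x => ⟨mem_of_pl k x, pl_mem⟩, dense⟩

end Vale.Agent.P282A14
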